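import Vale.Agent.Lib.P209.helper49.Outer
import Vale.Agent.Lib.P209.helper45.CountBig
import Vale.Agent.Lib.P209.helper80.SymCount
import Vale.Agent.Lib.P209.helper33.ParamsBig

open Complex ComplexConjugate Filter Topology

namespace Vale.Agent.Lib.P209.H49

open Vale.Agent.Lib.P209

/-- Core statement: with grid parameters `M`, `K` satisfying the numerical condition, at most
`m + 2` big balls with pairwise sums of capacities below `R` together with any family of small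
balls of capacities below `R / ((K + n) M)`, of total volume at most the fraction `1 - ε` of
`R ^ n`, pack the ball of capacity `R` (complex dimension `n = m + 1`). -/
theorem big_core (m M K : ℕ) (hM : 1 ≤ M) (ε : ℝ)
    (hP : (M : ℝ) * ((m + 1).factorial : ℝ) +
        ((((K + (m + 1) : ℕ) : ℝ) * (1 + 1 / (M : ℝ))) ^ (m + 1)) * (1 - ε) +
        ((m : ℝ) + 2) * ((((K + (m + 1) : ℕ) : ℝ) + ((m : ℝ) + 2)) ^ (m + 1) -
          ((K + (m + 1) : ℕ) : ℝ) ^ (m + 1)) ≤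
      ((K : ℝ) + 1) ^ (m + 1))
    (k₀ k : ℕ) (hk₀ : k₀ ≤ m + 2) (P : Fin k₀ → ℝ) (r : Fin k → ℝ) (R : ℝ) (hR : 0 < R)
    (hP0 : ∀ i, 0 < P i) (hPR : ∀ i, P i < R) (hpair : ∀ i j, i ≠ j → P i + P j < R)
    (hr : ∀ i, 0 < r i)
    (hsmall : ∀ i, r i < R / (((K + (m + 1) : ℕ) : ℝ) * (M : ℝ)))
    (hV : ∑ i, P i ^ (m + 1) + ∑ i, r i ^ (m + 1) ≤ (1 - ε) * R ^ (m + 1)) :
    BallPackingOn (m + 1) (Fin k₀ ⊕ Fin k) (Sum.elim P r) R := by
  classical
  have hN1 : 1 ≤ K + (m + 1) := by omega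
  have hM0 : (0 : ℝ) < (M : ℝ) := by exact_mod_cast hM
  have hN0 : (0 : ℝ) < ((K + (m + 1) : ℕ) : ℝ) := by exact_mod_cast hN1
  choose L t htM ht2M hlt hge using fun i =>
    exists_type M (K + (m + 1)) hM hN1 (r i) R (hr i) (hsmall i)
  have hLD : ∀ i, L i ≤ Finset.univ.sup L := fun i => Finset.le_sup (Finset.mem_univ i)
  generalize Finset.univ.sup L = D at hLD
  have hB1 : 1 ≤ 2 ^ (m + 1) := Nat.one_le_two_pow
  let tt : Fin k → Fin M := fun i => ⟨t i - M, by have := htM i; have := ht2M i; omega⟩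
  have htt : ∀ i, M + (tt i).val = t i := by
    intro i
    have := htM i
    show M + (t i - M) = t i
    omega
  let mτ : Fin M → ℕ := fun τ =>
    (∑ i ∈ Finset.univ.filter (fun i => tt i = τ), (2 ^ (m + 1)) ^ (D - L i)) /
      (((M + τ.val) ^ (m + 1) * (m + 1).factorial) * (2 ^ (m + 1)) ^ D) + 1
  have hne : ∀ τ, Nonempty (GBin (m + 1) M mτ τ) := fun τ =>
    ⟨(⟨0, Nat.succ_pos _⟩, (fun _ => ⟨0, by omega⟩, 1))⟩
  have hcap : ∀ τ, ∑ i ∈ Finset.univ.filter (fun i => tt i = τ), (2 ^ (m + 1)) ^ (D - L i) ≤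
      Fintype.card (GBin (m + 1) M mτ τ) * (2 ^ (m + 1)) ^ D := by
    intro τ
    rw [card_GBin]
    have hq : 0 < ((M + τ.val) ^ (m + 1) * (m + 1).factorial) * (2 ^ (m + 1)) ^ D :=
      Nat.mul_pos (Nat.mul_pos (Nat.pow_pos (by omega)) (Nat.factorial_pos _)) (Nat.pow_pos hB1)
    exact nat_le_succ_div_mul _ _ _ hq
  obtain ⟨Φ, hΦ1, hΦ⟩ :=
    assign_bins (2 ^ (m + 1)) hB1 k M tt L D hLD (GBin (m + 1) M mτ) hcap
  -- the big balls: a uniform gap, the scale `u = N / R`, the margin `μ`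
  obtain ⟨δ₀, hδ₀, hgap1, hgap2⟩ := exists_gap k₀ P R hPR hpair
  set Nr : ℝ := ((K + (m + 1) : ℕ) : ℝ) with hNr
  set u : ℝ := Nr / R with hu
  have hu0 : 0 < u := div_pos hN0 hR
  have huR : u * R = Nr := by
    rw [hu]
    field_simp
  have hRN0 : 0 < R / Nr := div_pos hR hN0
  set μ : ℝ := min δ₀ (R / Nr) with hμ
  have hμ0 : 0 < μ := lt_min hδ₀ hRN0
  have hμδ : μ ≤ δ₀ := min_le_left _ _
  have hμu : u * μ ≤ 1 := by
    have h1 : μ ≤ R / Nr := min_le_right _ _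
    have h2 : u * μ ≤ u * (R / Nr) := mul_le_mul_of_nonneg_left h1 hu0.le
    have h3 : u * (R / Nr) = 1 := by
      rw [hu]
      field_simp
    linarith
  have hμu0 : 0 < u * μ := mul_pos hu0 hμ0
  have hKN : (K : ℝ) = Nr - ((m : ℝ) + 1) := by
    rw [hNr]
    push_cast
    ring
  -- enlarged big capacities `P i + μ / 4`, chart gap `μ / 2`
  have hg1 : ∀ i, (P i + μ / 4) + μ / 2 ≤ R := fun i => by linarith [hgap1 i]
  have hg2 : ∀ i j, i ≠ j → (P i + μ / 4) + (P j + μ / 4) + μ / 2 ≤ R := fun i j hij => by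
    linarith [hgap2 i j hij]
  -- letters and thresholds
  let l : Fin k₀ → Fin (m + 1 + 1) := fun i =>
    if i.val = 0 then Fin.last (m + 1) else ⟨i.val - 1, by have := i.isLt; omega⟩
  let T : Fin k₀ → ℕ := fun i =>
    if i.val = 0 then K + 1 - ⌈u * (P i + μ / 4)⌉₊ else ⌊u * (R - (P i + μ / 4 + μ / 4))⌋₊
  have hc : ∀ i, ((K - T i : ℕ) : ℝ) ≤ Nr * P i / R + 1 := by
    intro i
    have e1 : Nr * P i / R = u * P i := by
      rw [hu]
      ring
    rw [e1]
    have huP : 0 < u * P i := mul_pos hu0 (hP0 i)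
    by_cases hi : i.val = 0
    · have hT : T i = K + 1 - ⌈u * (P i + μ / 4)⌉₊ := if_pos hi
      have hxpos : 0 < u * (P i + μ / 4) := mul_pos hu0 (by linarith [hP0 i])
      have hceil : 1 ≤ ⌈u * (P i + μ / 4)⌉₊ := Nat.ceil_pos.2 hxpos
      have h1 : K - T i + 1 ≤ ⌈u * (P i + μ / 4)⌉₊ := by
        rw [hT]
        omega
      have h2 : ((K - T i : ℕ) : ℝ) + 1 ≤ (⌈u * (P i + μ / 4)⌉₊ : ℝ) := by exact_mod_cast h1
      have h3 := Nat.ceil_lt_add_one hxpos.le
      have h4 : u * (P i + μ / 4) = u * P i + u * μ / 4 := by ring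
      linarith
    · have hT : T i = ⌊u * (R - (P i + μ / 4 + μ / 4))⌋₊ := if_neg hi
      by_cases hTK : T i ≤ K
      · rw [Nat.cast_sub hTK]
        have h3 := Nat.lt_floor_add_one (u * (R - (P i + μ / 4 + μ / 4)))
        rw [← hT] at h3
        have h4 : u * (R - (P i + μ / 4 + μ / 4)) = Nr - u * P i - u * μ / 2 := by
          rw [← huR]
          ring
        have hm : (0 : ℝ) ≤ (m : ℝ) := Nat.cast_nonneg m
        linarith
      · have h0 : K - T i = 0 := by omega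
        rw [h0, Nat.cast_zero]
        linarith
  have hcount := count_bound_big m M K hM ε hP k r R hR k₀ hk₀ P (fun i => (hP0 i).le)
    (fun i => (hPR i).le) (fun i => K - T i) hc hV L t tt htt hge D hLD
  have hgoodcard : Fintype.card (Sym (Fin (m + 1 + 1)) K) ≤
      Fintype.card {s : Sym (Fin (m + 1 + 1)) K // ∀ i, Multiset.count (l i) s.1 < T i} +
        ∑ i, Fintype.card (Sym (Fin (m + 1 + 1)) (K - T i)) := by
    convert card_good_ge (Fin (m + 1 + 1)) K l T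
  have hsig : Fintype.card (Σ τ : Fin M, Fin (mτ τ)) = ∑ τ, mτ τ := by
    rw [Fintype.card_sigma]
    simp only [Fintype.card_fin]
  have hsum : ∑ τ, mτ τ + ∑ i, Fintype.card (Sym (Fin (m + 1 + 1)) (K - T i)) ≤
      Fintype.card (Sym (Fin (m + 1 + 1)) K) := hcount
  have hcardS : Fintype.card (Σ τ : Fin M, Fin (mτ τ)) ≤
      Fintype.card {s : Sym (Fin (m + 1 + 1)) K // ∀ i, Multiset.count (l i) s.1 < T i} := by
    rw [hsig]
    exact Nat.le_of_add_le_add_right (le_trans hsum hgoodcard)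
  obtain ⟨ψ'⟩ := Function.Embedding.nonempty_of_card_le hcardS
  let ψ : (Σ τ : Fin M, Fin (mτ τ)) ↪ Sym (Fin (m + 1 + 1)) K :=
    ψ'.trans (Function.Embedding.subtype _)
  have hgood0 : ∀ (x : Σ τ : Fin M, Fin (mτ τ)) (i : Fin k₀), i.val = 0 →
      P i + μ / 4 ≤ (∑ j, (cubeOf (m + 1) K (ψ x) j : ℝ)) * (R / Nr) := by
    intro x i hi
    have h1 : Multiset.count (l i) (ψ x).1 < T i := (ψ' x).2 i
    have hl : l i = Fin.last (m + 1) := if_pos hi
    have hT : T i = K + 1 - ⌈u * (P i + μ / 4)⌉₊ := if_pos hi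
    rw [hl, hT] at h1
    have h2 := sum_cubeOf (m + 1) K (ψ x)
    have h3 : ⌈u * (P i + μ / 4)⌉₊ ≤ ∑ j, cubeOf (m + 1) K (ψ x) j := by omega
    have h4 : u * (P i + μ / 4) ≤ ((∑ j, cubeOf (m + 1) K (ψ x) j : ℕ) : ℝ) :=
      le_trans (Nat.le_ceil _) (by exact_mod_cast h3)
    rw [Nat.cast_sum] at h4
    have h5 : P i + μ / 4 = u * (P i + μ / 4) * (R / Nr) := by
      rw [hu]
      field_simp
    rw [h5]
    exact mul_le_mul_of_nonneg_right h4 hRN0.le
  have hgood1 : ∀ (x : Σ τ : Fin M, Fin (mτ τ)) (i : Fin k₀), i.val ≠ 0 → ∀ j : Fin (m + 1),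
      j.val = i.val - 1 →
      ((cubeOf (m + 1) K (ψ x) j : ℝ) + 1) * (R / Nr) ≤ R - ((P i + μ / 4) + μ / 2 / 2) := by
    intro x i hi j hj
    have h1 : Multiset.count (l i) (ψ x).1 < T i := (ψ' x).2 i
    have hl : l i = Fin.castSucc j := by
      have h0 : l i = ⟨i.val - 1, by have := i.isLt; omega⟩ := if_neg hi
      rw [h0]
      exact Fin.ext hj.symm
    have hT : T i = ⌊u * (R - (P i + μ / 4 + μ / 4))⌋₊ := if_neg hi
    rw [hl, hT] at h1
    have h2 : cubeOf (m + 1) K (ψ x) j + 1 ≤ ⌊u * (R - (P i + μ / 4 + μ / 4))⌋₊ := h1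
    have hy0 : 0 ≤ u * (R - (P i + μ / 4 + μ / 4)) :=
      mul_nonneg hu0.le (by linarith [hgap1 i])
    have h3 : ((cubeOf (m + 1) K (ψ x) j : ℝ) + 1) ≤ u * (R - (P i + μ / 4 + μ / 4)) :=
      le_trans (by exact_mod_cast h2) (Nat.floor_le hy0)
    have h5 : R - ((P i + μ / 4) + μ / 2 / 2) =
        u * (R - (P i + μ / 4 + μ / 4)) * (R / Nr) := by
      rw [hu]
      field_simp
      ring
    rw [h5]
    exact mul_le_mul_of_nonneg_right h3 hRN0.le
  -- the small balls: margin for the bins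
  have ht0 : ∀ i, (0 : ℝ) < (t i : ℝ) := fun i => by
    exact_mod_cast (lt_of_lt_of_le hM (htM i))
  have hden : ∀ i, (0 : ℝ) < Nr * (t i : ℝ) * 2 ^ L i := by
    intro i
    have := ht0 i
    positivity
  obtain ⟨δ, hδpos, hδ⟩ := exists_pos_le_of_finite
    (fun i : Fin k => 1 - r i * (Nr * (t i : ℝ) * 2 ^ L i) / R) (by
      intro i
      have h1 := hlt i
      rw [lt_div_iff₀ (hden i)] at h1
      rw [sub_pos, div_lt_one hR]
      exact h1)
  let ρ : Fin M → ℝ := fun τ =>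
    (1 - δ / 2) * (R / (Nr * ((M + τ.val : ℕ) : ℝ)))
  have houter : BallPackingOn (m + 1) (Fin k₀ ⊕ (Σ τ : Fin M, GBin (m + 1) M mτ τ))
      (Sum.elim (fun i => P i + μ / 4) (fun g => ρ g.1)) R := by
    refine outer_mixed m M K hM mτ ψ ρ R hR ?_ k₀ hk₀ (fun i => P i + μ / 4) (μ / 2)
      (by linarith) hg1 hg2 hgood0 hgood1
    intro τ
    have hpos : (0 : ℝ) < ((M + τ.val : ℕ) : ℝ) := by
      exact_mod_cast (by omega : 0 < M + τ.val)
    have hX : 0 < R / (Nr * ((M + τ.val : ℕ) : ℝ)) := by positivity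
    show (1 - δ / 2) * (R / (Nr * ((M + τ.val : ℕ) : ℝ))) < _
    nlinarith
  refine nest_sum Φ P (fun i => P i + μ / 4) r (fun g => ρ g.1) R houter
    (fun i => by linarith) ?_
  intro g
  refine dyadic_on m D {i : Fin k // Φ i = g} (fun i => L i.val) (fun i => r i.val) (ρ g.1)
    (fun i => hLD i.val) ?_ ?_
  · rintro ⟨i, hi⟩
    have hg1 : g.1 = tt i := by
      rw [← hi]
      exact hΦ1 i
    show r i < ρ g.1 / 2 ^ L i
    rw [hg1]
    show r i < (1 - δ / 2) * (R / (Nr * ((M + (tt i).val : ℕ) : ℝ))) /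
      2 ^ L i
    rw [htt i]
    have h1 := hδ i
    have h2 := hden i
    have h3 : r i * (Nr * (t i : ℝ) * 2 ^ L i) / R ≤ 1 - δ := by
      linarith
    rw [div_le_iff₀ hR] at h3
    have h4 : (1 - δ / 2) * (R / (Nr * (t i : ℝ))) =
        (1 - δ / 2) * R / (Nr * (t i : ℝ)) := by ring
    have h5 := ht0 i
    rw [lt_div_iff₀ (by positivity), h4, lt_div_iff₀ (by positivity)]
    nlinarith
  · have h1 := hΦ g
    have h2 : ∑ i : {i : Fin k // Φ i = g}, (2 ^ (m + 1)) ^ (D - L i.val) =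
        ∑ i ∈ Finset.univ.filter (fun i => Φ i = g), (2 ^ (m + 1)) ^ (D - L i) :=
      (Finset.sum_subtype (Finset.univ.filter (fun i => Φ i = g)) (by simp)
        (fun i => (2 ^ (m + 1)) ^ (D - L i))).symm
    rw [h2]
    exact h1

/-- Big and small balls, general finite index type: for every `ε > 0` there is `δ > 0` such that
a family of closed balls of capacities `r i > 0`, all of which except those in a set `B` of at
most `n + 1` indices have `r i ≤ δ R`, packs the open ball of capacity `R` as soon as the balls of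
`B` have capacities below `R` with pairwise sums below `R` and the total volume is at most the
fraction `1 - ε` of `R ^ n` (complex dimension `n = m + 1`). -/
theorem big_and_small_on (m : ℕ) (ε : ℝ) (hε : 0 < ε) :
    ∃ δ : ℝ, 0 < δ ∧ ∀ (ι : Type) [Fintype ι] (r : ι → ℝ) (R : ℝ) (B : Finset ι), 0 < R →
      (∀ i, 0 < r i) → B.card ≤ m + 2 → (∀ i ∈ B, r i < R) →
      (∀ i ∈ B, ∀ j ∈ B, i ≠ j → r i + r j < R) → (∀ i, i ∉ B → r i ≤ δ * R) →
      ∑ i, r i ^ (m + 1) ≤ (1 - ε) * R ^ (m + 1) → BallPackingOn (m + 1) ι r R := by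
  have hε'pos : 0 < min ε (1 / 2) := lt_min hε (by norm_num)
  have hε'le : min ε (1 / 2) ≤ 1 / 2 := min_le_right _ _
  have hε'ε : min ε (1 / 2) ≤ ε := min_le_left _ _
  obtain ⟨M, K, hM, hK, hP⟩ :=
    exists_params_big (m + 1) (Nat.succ_pos m) (min ε (1 / 2)) hε'pos hε'le
  have hN0 : (0 : ℝ) < ((K + (m + 1) : ℕ) : ℝ) := by
    exact_mod_cast (by omega : 0 < K + (m + 1))
  have hM0 : (0 : ℝ) < (M : ℝ) := by exact_mod_cast hM
  refine ⟨1 / (2 * (((K + (m + 1) : ℕ) : ℝ) * (M : ℝ))), by positivity, ?_⟩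
  intro ι _ r R B hR hr hcard hBR hBpair hsmall hV
  classical
  set e₀ := Fintype.equivFin {i : ι // i ∈ B} with he₀
  set e₁ := Fintype.equivFin {i : ι // i ∉ B} with he₁
  have hk₀ : Fintype.card {i : ι // i ∈ B} ≤ m + 2 := by
    rw [Fintype.card_coe]
    exact hcard
  have hcore : BallPackingOn (m + 1)
      (Fin (Fintype.card {i : ι // i ∈ B}) ⊕ Fin (Fintype.card {i : ι // i ∉ B}))
      (Sum.elim (fun a => r (e₀.symm a).val) (fun a => r (e₁.symm a).val)) R := by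
    refine big_core m M K hM (min ε (1 / 2)) ?_ _ _ hk₀ _ _ R hR ?_ ?_ ?_ ?_ ?_ ?_
    · refine le_of_eq_of_le ?_ hP
      push_cast
      ring
    · intro a
      exact hr _
    · intro a
      exact hBR _ (e₀.symm a).2
    · intro a b hab
      exact hBpair _ (e₀.symm a).2 _ (e₀.symm b).2
        (fun h => hab (e₀.symm.injective (Subtype.ext h)))
    · intro a
      exact hr _
    · intro a
      have h1 := hsmall _ (e₁.symm a).2
      have h2 : 1 / (2 * (((K + (m + 1) : ℕ) : ℝ) * (M : ℝ))) * R <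
          R / (((K + (m + 1) : ℕ) : ℝ) * (M : ℝ)) := by
        have hNM : (0 : ℝ) < ((K + (m + 1) : ℕ) : ℝ) * (M : ℝ) := mul_pos hN0 hM0
        rw [div_mul_eq_mul_div, one_mul, div_lt_div_iff₀ (by positivity) hNM]
        nlinarith
      linarith
    · have hRn : (0 : ℝ) ≤ R ^ (m + 1) := by positivity
      have h1 : (1 - ε) * R ^ (m + 1) ≤ (1 - min ε (1 / 2)) * R ^ (m + 1) :=
        mul_le_mul_of_nonneg_right (by linarith) hRn
      have h2 : ∑ a, r (e₀.symm a).val ^ (m + 1) = ∑ x : {i : ι // i ∈ B}, r x.val ^ (m + 1) :=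
        Equiv.sum_comp e₀.symm (fun x : {i : ι // i ∈ B} => r x.val ^ (m + 1))
      have h3 : ∑ a, r (e₁.symm a).val ^ (m + 1) = ∑ x : {i : ι // i ∉ B}, r x.val ^ (m + 1) :=
        Equiv.sum_comp e₁.symm (fun x : {i : ι // i ∉ B} => r x.val ^ (m + 1))
      have h4 : ∑ x ∈ B, r x ^ (m + 1) = ∑ x : {i : ι // i ∈ B}, r x.val ^ (m + 1) :=
        Finset.sum_subtype B (fun _ => Iff.rfl) (fun i : ι => r i ^ (m + 1))
      have h5 : ∑ x ∈ Bᶜ, r x ^ (m + 1) = ∑ x : {i : ι // i ∉ B}, r x.val ^ (m + 1) :=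
        Finset.sum_subtype Bᶜ (fun _ => Finset.mem_compl) (fun i : ι => r i ^ (m + 1))
      have h6 : ∑ x ∈ B, r x ^ (m + 1) + ∑ x ∈ Bᶜ, r x ^ (m + 1) = ∑ i, r i ^ (m + 1) :=
        Finset.sum_add_sum_compl B (fun i : ι => r i ^ (m + 1))
      rw [h2, h3, ← h4, ← h5, h6]
      linarith
  refine BallPackingOn.comap
    (fun i : ι => Equiv.sumCongr e₀ e₁ ((Equiv.sumCompl (fun i : ι => i ∈ B)).symm i)) ?_ _ r R ?_
    hcore
  · exact ((Equiv.sumCompl (fun i : ι => i ∈ B)).symm.trans (Equiv.sumCongr e₀ e₁)).injective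
  · intro i
    by_cases hi : i ∈ B
    · rw [Equiv.sumCompl_symm_apply_of_pos hi]
      simp
    · rw [Equiv.sumCompl_symm_apply_of_neg hi]
      simp

/-- Big and small balls, `Fin k`-indexed form. -/
theorem big_and_small (m : ℕ) (ε : ℝ) (hε : 0 < ε) :
    ∃ δ : ℝ, 0 < δ ∧ ∀ (k : ℕ) (r : Fin k → ℝ) (R : ℝ) (B : Finset (Fin k)), 0 < R →
      (∀ i, 0 < r i) → B.card ≤ m + 2 → (∀ i ∈ B, r i < R) →
      (∀ i ∈ B, ∀ j ∈ B, i ≠ j → r i + r j < R) → (∀ i, i ∉ B → r i ≤ δ * R) →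
      ∑ i, r i ^ (m + 1) ≤ (1 - ε) * R ^ (m + 1) → BallPacking (m + 1) k r R := by
  obtain ⟨δ, hδ, h⟩ := big_and_small_on m ε hε
  exact ⟨δ, hδ, fun k r R B hR hr hc h1 h2 h3 h4 => h (Fin k) r R B hR hr hc h1 h2 h3 h4⟩

end Vale.Agent.Lib.P209.H49
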