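import Vale.Agent.Lib.P209.Asymp
import Vale.Agent.Lib.P209.CornerPack

open Complex ComplexConjugate Filter Topology

namespace Vale.Agent.Lib.P209.H49

open Vale.Agent.Lib.P209

/-- Reindexing a packing along an injective map. -/
theorem BallPackingOn.comap {n : ℕ} {ι ι' : Type} (e : ι' → ι) (he : Function.Injective e)
    (r : ι → ℝ) (r' : ι' → ℝ) (R : ℝ) (hr : ∀ i, r' i = r (e i)) (h : BallPackingOn n ι r R) :
    BallPackingOn n ι' r' R := by
  obtain ⟨f, h1, h2, h3⟩ := h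
  refine ⟨fun i => f (e i), fun i => ?_, fun i => ?_, fun i j hij => ?_⟩
  · rw [hr i]
    exact h1 (e i)
  · rw [hr i]
    exact h2 (e i)
  · rw [hr i, hr j]
    exact h3 (e i) (e j) (fun h => hij (he h))

/-- Pairwise disjoint cells inside the simplex give a ball packing whose balls lie over their
cells. -/
theorem packing_of_cells_mem (n : ℕ) {ι : Type} (κ : ι → Fin n → ℝ) (s : ι → ℝ)
    (σ : ι → Equiv.Perm (Fin n)) (r : ι → ℝ) (R : ℝ)
    (hκ : ∀ i j, 0 ≤ κ i j) (hr : ∀ i, r i < Real.pi * s i)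
    (hin : ∀ i, ∀ x ∈ Cell n (κ i) (s i) (σ i), Real.pi * ∑ j, x j < R)
    (hdisj : ∀ i i', i ≠ i' →
      Disjoint (Cell n (κ i) (s i) (σ i)) (Cell n (κ i') (s i') (σ i'))) :
    ∃ f : ι → EuclideanSpace ℂ (Fin n) → EuclideanSpace ℂ (Fin n),
      (∀ i, IsSympBallEmb n (r i) (f i)) ∧
      (∀ i, f i '' capBall n (r i) ⊆ openCapBall n R) ∧
      (∀ i j, i ≠ j → Disjoint (f i '' capBall n (r i)) (f j '' capBall n (r j))) ∧
      (∀ i, ∀ z ∈ capBall n (r i),
        (fun j : Fin n => ‖f i z j‖ ^ 2) ∈ Cell n (κ i) (s i) (σ i)) := by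
  choose f U hs hcap hcell using fun i =>
    exists_cell_emb n (κ i) (hκ i) (s i) (σ i) (r i) (hr i)
  refine ⟨f, fun i => (hs i).isSympBallEmb (hcap i), ?_, ?_,
    fun i z hz => hcell i z (hcap i hz)⟩
  · intro i
    rintro y ⟨z, hz, rfl⟩
    have h1 := hin i _ (hcell i z (hcap i hz))
    unfold openCapBall
    exact h1
  · intro i i' hii'
    rw [Set.disjoint_left]
    rintro y ⟨z, hz, rfl⟩ ⟨z', hz', hzz'⟩
    have h1 := hcell i z (hcap i hz)
    have h2 := hcell i' z' (hcap i' hz')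
    rw [hzz'] at h2
    exact Set.disjoint_left.1 (hdisj i i' hii') h1 h2

/-- Grid packing, with the position of every ball recorded: the ball with cube index `a i` lies
over the open cube `a i j * H < ‖z j‖ ^ 2 < (a i j + 1) * H`. -/
theorem grid_packing_mem (n : ℕ) (hn : 0 < n) {ι : Type} (a : ι → Fin n → ℕ) (t : ι → ℕ)
    (b : ι → Fin n → ℕ) (σ : ι → Equiv.Perm (Fin n)) (N : ℕ) (H R : ℝ) (r : ι → ℝ)
    (hH : 0 < H) (hNH : Real.pi * (N * H) ≤ R)
    (ht : ∀ i, 1 ≤ t i) (hb : ∀ i j, b i j < t i)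
    (ha : ∀ i, ∑ j, (a i j + 1) ≤ N)
    (hsep : ∀ i i', i ≠ i' → a i = a i' → t i = t i' ∧ (b i = b i' → σ i ≠ σ i'))
    (hr : ∀ i, r i < Real.pi * (H / t i)) :
    ∃ f : ι → EuclideanSpace ℂ (Fin n) → EuclideanSpace ℂ (Fin n),
      (∀ i, IsSympBallEmb n (r i) (f i)) ∧
      (∀ i, f i '' capBall n (r i) ⊆ openCapBall n R) ∧
      (∀ i j, i ≠ j → Disjoint (f i '' capBall n (r i)) (f j '' capBall n (r j))) ∧
      (∀ i, ∀ z ∈ capBall n (r i), ∀ j,
        (a i j : ℝ) * H < ‖f i z j‖ ^ 2 ∧ ‖f i z j‖ ^ 2 < ((a i j : ℝ) + 1) * H) := by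
  have htpos : ∀ i, (0 : ℝ) < (t i : ℝ) := fun i => by exact_mod_cast ht i
  have hfrac : ∀ i j, ((b i j : ℝ) + 1) / (t i : ℝ) ≤ 1 := by
    intro i j
    rw [div_le_one (htpos i)]
    exact_mod_cast hb i j
  have hcorner : ∀ i j, ((a i j : ℝ) + (b i j : ℝ) / (t i : ℝ)) * H + H / (t i : ℝ) ≤
      ((a i j : ℝ) + 1) * H := by
    intro i j
    have h1 : ((a i j : ℝ) + (b i j : ℝ) / (t i : ℝ)) * H + H / (t i : ℝ) =
        ((a i j : ℝ) + ((b i j : ℝ) + 1) / (t i : ℝ)) * H := by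
      ring
    rw [h1]
    have h2 := hfrac i j
    nlinarith
  have hbnn : ∀ i j, (0 : ℝ) ≤ (b i j : ℝ) / (t i : ℝ) := fun i j =>
    div_nonneg (Nat.cast_nonneg _) (htpos i).le
  refine Exists.imp (fun f hf => ?_)
    (packing_of_cells_mem n (fun i j => ((a i j : ℝ) + (b i j : ℝ) / (t i : ℝ)) * H)
      (fun i => H / (t i : ℝ)) σ r R ?_ hr ?_ ?_)
  · obtain ⟨hf1, hf2, hf3, hf4⟩ := hf
    refine ⟨hf1, hf2, hf3, fun i z hz j => ?_⟩
    have h5 := cell_coord n _ _ _ _ (hf4 i z hz) j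
    have h6 := hcorner i j
    have h7 := hbnn i j
    constructor
    · have h8 : (a i j : ℝ) * H ≤ ((a i j : ℝ) + (b i j : ℝ) / (t i : ℝ)) * H := by nlinarith
      exact lt_of_le_of_lt h8 h5.1
    · exact lt_of_lt_of_le h5.2 h6
  · intro i j
    have h1 : (0 : ℝ) ≤ (a i j : ℝ) := Nat.cast_nonneg _
    have h2 := hbnn i j
    positivity
  · intro i x hx
    have h1 : ∀ j, x j < ((a i j : ℝ) + 1) * H := by
      intro j
      have h2 := (cell_coord n _ _ _ x hx j).2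
      have h3 := hcorner i j
      linarith
    have h4 : ∑ j, x j < ∑ j, ((a i j : ℝ) + 1) * H :=
      Finset.sum_lt_sum_of_nonempty (Finset.univ_nonempty_iff.2 ⟨⟨0, hn⟩⟩) fun j _ => h1 j
    have h5 : ∑ j, ((a i j : ℝ) + 1) * H ≤ N * H := by
      rw [← Finset.sum_mul]
      have h6 : ∑ j, ((a i j : ℝ) + 1) ≤ (N : ℝ) := by
        exact_mod_cast ha i
      exact mul_le_mul_of_nonneg_right h6 hH.le
    have hpi := Real.pi_pos
    have h7 : Real.pi * ∑ j, x j < Real.pi * (N * H) :=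
      mul_lt_mul_of_pos_left (lt_of_lt_of_le h4 h5) hpi
    linarith
  · intro i i' hii'
    by_cases haa : a i = a i'
    · obtain ⟨htt, hbσ⟩ := hsep i i' hii' haa
      by_cases hbb : b i = b i'
      · have hσ := hbσ hbb
        have hκ : (fun j => ((a i j : ℝ) + (b i j : ℝ) / (t i : ℝ)) * H) =
            (fun j => ((a i' j : ℝ) + (b i' j : ℝ) / (t i' : ℝ)) * H) := by
          rw [haa, hbb, htt]
        show Disjoint (Cell n (fun j => ((a i j : ℝ) + (b i j : ℝ) / (t i : ℝ)) * H) _ _)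
          (Cell n (fun j => ((a i' j : ℝ) + (b i' j : ℝ) / (t i' : ℝ)) * H) _ _)
        rw [← hκ]
        exact cell_disjoint_of_perm n _ _ _ _ _ hσ
      · have hex : ∃ j, b i j ≠ b i' j := by
          by_contra hcon
          push Not at hcon
          exact hbb (funext hcon)
        obtain ⟨j, hj⟩ := hex
        have key : ∀ i₁ i₂ : ι, a i₁ = a i₂ → t i₁ = t i₂ → b i₁ j < b i₂ j →
            ((a i₁ j : ℝ) + (b i₁ j : ℝ) / (t i₁ : ℝ)) * H + H / (t i₁ : ℝ) ≤
              ((a i₂ j : ℝ) + (b i₂ j : ℝ) / (t i₂ : ℝ)) * H := by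
          intro i₁ i₂ h1 h2 h3
          have h4 : ((a i₁ j : ℝ) + (b i₁ j : ℝ) / (t i₁ : ℝ)) * H + H / (t i₁ : ℝ) =
              ((a i₁ j : ℝ) + ((b i₁ j : ℝ) + 1) / (t i₁ : ℝ)) * H := by
            ring
          rw [h4, h1, h2]
          have h5 : ((b i₁ j : ℝ) + 1) / (t i₂ : ℝ) ≤ (b i₂ j : ℝ) / (t i₂ : ℝ) := by
            apply div_le_div_of_nonneg_right _ (htpos i₂).le
            exact_mod_cast h3
          nlinarith
        rcases lt_or_gt_of_ne hj with hlt | hgt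
        · exact cell_disjoint_of_sep n _ _ _ _ _ _ j (key i i' haa htt hlt)
        · exact (cell_disjoint_of_sep n _ _ _ _ _ _ j (key i' i haa.symm htt.symm hgt)).symm
    · have hex : ∃ j, a i j ≠ a i' j := by
        by_contra hcon
        push Not at hcon
        exact haa (funext hcon)
      obtain ⟨j, hj⟩ := hex
      have key : ∀ i₁ i₂ : ι, a i₁ j < a i₂ j →
          ((a i₁ j : ℝ) + (b i₁ j : ℝ) / (t i₁ : ℝ)) * H + H / (t i₁ : ℝ) ≤
            ((a i₂ j : ℝ) + (b i₂ j : ℝ) / (t i₂ : ℝ)) * H := by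
        intro i₁ i₂ h3
        have h4 := hcorner i₁ j
        have h5 : ((a i₁ j : ℝ) + 1) ≤ (a i₂ j : ℝ) := by exact_mod_cast h3
        have h6 := hbnn i₂ j
        nlinarith
      rcases lt_or_gt_of_ne hj with hlt | hgt
      · exact cell_disjoint_of_sep n _ _ _ _ _ _ j (key i i' hlt)
      · exact (cell_disjoint_of_sep n _ _ _ _ _ _ j (key i' i hgt)).symm

/-- Corner packing with the positions recorded: the ball with index `0` is the standard ball at
the origin, the ball with index `i ≥ 1` lies where the coordinate `i - 1` is large. -/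
theorem corner_packing_mem (m k : ℕ) (hk : k ≤ m + 2) (r : Fin k → ℝ) (R δ : ℝ) (hδ : 0 < δ)
    (hg1 : ∀ i, r i + δ ≤ R) (hg2 : ∀ i j, i ≠ j → r i + r j + δ ≤ R) :
    ∃ f : Fin k → EuclideanSpace ℂ (Fin (m + 1)) → EuclideanSpace ℂ (Fin (m + 1)),
      (∀ i, IsSympBallEmb (m + 1) (r i) (f i)) ∧
      (∀ i, f i '' capBall (m + 1) (r i) ⊆ openCapBall (m + 1) R) ∧
      (∀ i j, i ≠ j → Disjoint (f i '' capBall (m + 1) (r i)) (f j '' capBall (m + 1) (r j))) ∧
      (∀ i : Fin k, i.val = 0 → ∀ w ∈ capBall (m + 1) (r i), Real.pi * ‖f i w‖ ^ 2 ≤ r i) ∧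
      (∀ i : Fin k, i.val ≠ 0 → ∀ w ∈ capBall (m + 1) (r i), ∀ j : Fin (m + 1),
        j.val = i.val - 1 → R - (r i + δ / 2) ≤ Real.pi * ‖f i w j‖ ^ 2) := by
  have hrR : ∀ i, r i < R := fun i => by linarith [hg1 i]
  have hpi := Real.pi_pos
  set c : ℝ := Real.pi⁻¹ * R with hcdef
  set ε : ℝ := δ / 4 with hεdef
  have hε : 0 < ε := by rw [hεdef]; linarith
  set M : Fin k → ℝ := fun i => Real.pi⁻¹ * (r i + δ / 4) with hMdef
  have hMc : ∀ i, Real.pi⁻¹ * ε + M i < c := by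
    intro i
    have h1 : Real.pi⁻¹ * ε + M i = Real.pi⁻¹ * (r i + δ / 2) := by
      rw [hMdef, hεdef]
      ring
    rw [h1, hcdef]
    exact mul_lt_mul_of_pos_left (by linarith [hg1 i]) (inv_pos.2 hpi)
  have hrM : ∀ i, r i < Real.pi * M i := by
    intro i
    have h1 : Real.pi * M i = r i + δ / 4 := by
      rw [hMdef]
      field_simp
    rw [h1]
    linarith
  have hcR : Real.pi * c = R := by
    rw [hcdef]
    field_simp
  set jj : Fin k → Fin (m + 1) := fun i => ⟨i.val - 1, by have := i.isLt; omega⟩ with hjjdef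
  set ee : Fin k → EuclideanSpace ℂ (Fin (m + 1)) :=
    fun i => EuclideanSpace.single (jj i) (1 : ℂ) with heedef
  have hee : ∀ i, ‖ee i‖ = 1 := fun i => norm_single_one (m + 1) (jj i)
  set f : Fin k → EuclideanSpace ℂ (Fin (m + 1)) → EuclideanSpace ℂ (Fin (m + 1)) :=
    fun i => if i.val = 0 then id else CM c (M i) ε (ee i) with hfdef
  have hf0 : ∀ i : Fin k, i.val = 0 → f i = id := by
    intro i hi
    simp only [hfdef, hi, if_true]
  have hf1 : ∀ i : Fin k, i.val ≠ 0 → f i = CM c (M i) ε (ee i) := by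
    intro i hi
    simp only [hfdef, hi, if_false]
  -- membership in the domain of the corner map
  have hdom : ∀ i, ∀ w ∈ capBall (m + 1) (r i), ‖w‖ ^ 2 < M i := by
    intro i w hw
    rw [mem_capBall] at hw
    have h1 := hrM i
    by_contra hcon
    push Not at hcon
    nlinarith
  -- the key estimate for corner images
  have hcorner : ∀ i : Fin k, i.val ≠ 0 → ∀ w ∈ capBall (m + 1) (r i),
      ‖f i w‖ ^ 2 < c ∧ c - Real.pi⁻¹ * (r i + δ / 2) ≤ ‖(f i w) (jj i)‖ ^ 2 := by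
    intro i hi w hw
    rw [hf1 i hi]
    refine ⟨norm_sq_CM_lt c (M i) ε hε (hMc i) (ee i) (hee i) w (hdom i w hw), ?_⟩
    have h1 := norm_sq_inner_CM_ge c (M i) ε hε (hMc i) (ee i) (hee i) w (hdom i w hw)
    rw [inner_single_one] at h1
    have h2 : Real.pi⁻¹ * ε + M i = Real.pi⁻¹ * (r i + δ / 2) := by
      rw [hMdef, hεdef]
      ring
    rw [h2] at h1
    exact h1
  have hcentre : ∀ i : Fin k, i.val = 0 → ∀ w ∈ capBall (m + 1) (r i),
      ‖f i w‖ ^ 2 ≤ Real.pi⁻¹ * r i := by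
    intro i hi w hw
    rw [hf0 i hi]
    rw [mem_capBall] at hw
    rw [id, inv_mul_eq_div, le_div_iff₀ hpi]
    linarith
  -- centre versus corner
  have hcc : ∀ i j : Fin k, i.val = 0 → j.val ≠ 0 →
      Disjoint (f i '' capBall (m + 1) (r i)) (f j '' capBall (m + 1) (r j)) := by
    intro i j hi hj
    rw [Set.disjoint_left]
    rintro y ⟨w, hw, rfl⟩ ⟨w', hw', heq⟩
    have h1 := hcentre i hi w hw
    have h2 := (hcorner j hj w' hw').2
    rw [heq] at h2
    have h3 := norm_sq_coord_le (m + 1) (f i w) (jj j)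
    have hij : i ≠ j := by
      intro h
      rw [h] at hi
      exact hj hi
    have h4 := hg2 i j hij
    have h5 : c - Real.pi⁻¹ * (r j + δ / 2) ≤ Real.pi⁻¹ * r i := by linarith
    have h6 : Real.pi⁻¹ * (R - (r j + δ / 2)) ≤ Real.pi⁻¹ * r i := by
      rw [hcdef] at h5
      linarith
    have h7 := le_of_mul_le_mul_left h6 (inv_pos.2 hpi)
    linarith
  refine ⟨f, ?_, ?_, ?_, ?_, ?_⟩
  · intro i
    by_cases hi : i.val = 0
    · rw [hf0 i hi]
      exact id_isSympBallEmb (m + 1) (r i)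
    · rw [hf1 i hi]
      exact CM_isSympBallEmb (m + 1) c (M i) ε hε (hMc i) (ee i) (hee i) (r i) (hrM i)
  · intro i
    rintro y ⟨w, hw, rfl⟩
    rw [mem_openCapBall]
    by_cases hi : i.val = 0
    · have h1 := hcentre i hi w hw
      have h2 : Real.pi * ‖f i w‖ ^ 2 ≤ Real.pi * (Real.pi⁻¹ * r i) :=
        mul_le_mul_of_nonneg_left h1 hpi.le
      have h3 : Real.pi * (Real.pi⁻¹ * r i) = r i := by field_simp
      linarith [hrR i]
    · have h1 := (hcorner i hi w hw).1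
      have h2 : Real.pi * ‖f i w‖ ^ 2 < Real.pi * c := mul_lt_mul_of_pos_left h1 hpi
      linarith
  · intro i j hij
    by_cases hi : i.val = 0
    · by_cases hj : j.val = 0
      · exact absurd (Fin.ext (hi.trans hj.symm)) hij
      · exact hcc i j hi hj
    · by_cases hj : j.val = 0
      · exact (hcc j i hj hi).symm
      · rw [Set.disjoint_left]
        rintro y ⟨w, hw, rfl⟩ ⟨w', hw', heq⟩
        have h1 := hcorner i hi w hw
        have h2 := (hcorner j hj w' hw').2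
        rw [heq] at h2
        have hjj : jj i ≠ jj j := by
          intro h
          have h' := congrArg Fin.val h
          simp only [hjjdef] at h'
          apply hij
          apply Fin.ext
          omega
        have h3 := norm_sq_coord_add_le (m + 1) (f i w) (jj i) (jj j) hjj
        have h4 := hg2 i j hij
        have h5 : c < Real.pi⁻¹ * (r i + δ / 2) + Real.pi⁻¹ * (r j + δ / 2) := by
          linarith [h1.1, h1.2]
        have h6 : Real.pi⁻¹ * R < Real.pi⁻¹ * (r i + r j + δ) := by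
          rw [hcdef] at h5
          linarith
        have h7 := lt_of_mul_lt_mul_left h6 (inv_pos.2 hpi).le
        linarith
  · intro i hi w hw
    have h1 := hcentre i hi w hw
    have h2 : Real.pi * ‖f i w‖ ^ 2 ≤ Real.pi * (Real.pi⁻¹ * r i) :=
      mul_le_mul_of_nonneg_left h1 hpi.le
    have h3 : Real.pi * (Real.pi⁻¹ * r i) = r i := by field_simp
    linarith
  · intro i hi w hw j hj
    have h1 := (hcorner i hi w hw).2
    have hjeq : jj i = j := Fin.ext hj.symm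
    rw [hjeq] at h1
    have h2 : Real.pi * (c - Real.pi⁻¹ * (r i + δ / 2)) ≤ Real.pi * ‖f i w j‖ ^ 2 :=
      mul_le_mul_of_nonneg_left h1 hpi.le
    have h3 : Real.pi * (c - Real.pi⁻¹ * (r i + δ / 2)) = R - (r i + δ / 2) := by
      rw [mul_sub, hcR]
      field_simp
    linarith

/-- The outer packing: at most `m + 2` big balls in corner position together with the grid bins
over cubes that avoid them. -/
theorem outer_mixed (m M K : ℕ) (hM : 1 ≤ M) (mτ : Fin M → ℕ)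
    (ψ : (Σ τ : Fin M, Fin (mτ τ)) ↪ Sym (Fin (m + 1 + 1)) K) (ρ : Fin M → ℝ) (R : ℝ)
    (hR : 0 < R)
    (hρ : ∀ τ : Fin M, ρ τ < R / (((K + (m + 1) : ℕ) : ℝ) * ((M + τ.val : ℕ) : ℝ)))
    (k₀ : ℕ) (hk₀ : k₀ ≤ m + 2) (P : Fin k₀ → ℝ) (δ : ℝ) (hδ : 0 < δ)
    (hg1 : ∀ i, P i + δ ≤ R) (hg2 : ∀ i j, i ≠ j → P i + P j + δ ≤ R)
    (hgood0 : ∀ (x : Σ τ : Fin M, Fin (mτ τ)) (i : Fin k₀), i.val = 0 →
      P i ≤ (∑ j, (cubeOf (m + 1) K (ψ x) j : ℝ)) * (R / ((K + (m + 1) : ℕ) : ℝ)))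
    (hgood1 : ∀ (x : Σ τ : Fin M, Fin (mτ τ)) (i : Fin k₀), i.val ≠ 0 → ∀ j : Fin (m + 1),
      j.val = i.val - 1 →
      ((cubeOf (m + 1) K (ψ x) j : ℝ) + 1) * (R / ((K + (m + 1) : ℕ) : ℝ)) ≤
        R - (P i + δ / 2)) :
    BallPackingOn (m + 1) (Fin k₀ ⊕ (Σ τ : Fin M, GBin (m + 1) M mτ τ))
      (Sum.elim P (fun g => ρ g.1)) R := by
  have hpi := Real.pi_pos
  set N : ℕ := K + (m + 1) with hN
  have hN0 : (0 : ℝ) < (N : ℝ) := by exact_mod_cast (by omega : 0 < N)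
  set H : ℝ := R / (Real.pi * N) with hH
  have hHpos : 0 < H := by rw [hH]; positivity
  have hπH : Real.pi * H = R / (N : ℝ) := by
    rw [hH]
    field_simp
  obtain ⟨F, hF1, hF2, hF3, hF4, hF5⟩ := corner_packing_mem m k₀ hk₀ P R δ hδ hg1 hg2
  obtain ⟨G, hG1, hG2, hG3, hG4⟩ := grid_packing_mem (m + 1) (Nat.succ_pos m)
    (ι := Σ τ : Fin M, GBin (m + 1) M mτ τ)
    (fun g => cubeOf (m + 1) K (ψ ⟨g.1, g.2.1⟩)) (fun g => M + g.1.val)
    (fun g j => (g.2.2.1 j).val) (fun g => g.2.2.2) N H R (fun g => ρ g.1) hHpos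
    (by
      have h1 : Real.pi * ((N : ℝ) * H) = R := by
        rw [hH]
        field_simp
      rw [h1])
    (fun g => by omega)
    (fun g j => (g.2.2.1 j).isLt)
    (fun g => cubeOf_sum_le (m + 1) K _)
    (by
      rintro ⟨τ, c, b, σ⟩ ⟨τ', c', b', σ'⟩ hne hag
      have h1 := ψ.injective (cubeOf_injective (m + 1) K hag)
      have h2 : τ = τ' := congrArg Sigma.fst h1
      subst h2
      have h3 : c = c' := eq_of_heq (Sigma.mk.inj_iff.1 h1).2
      subst h3
      refine ⟨rfl, fun hbb hσ => hne ?_⟩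
      have h4 : b = b' := funext fun j => Fin.ext (congrFun hbb j)
      have h5 : σ = σ' := hσ
      rw [h4, h5])
    (by
      intro g
      have h1 := hρ g.1
      have hpos : (0 : ℝ) < ((M + g.1.val : ℕ) : ℝ) := by
        exact_mod_cast (by omega : 0 < M + g.1.val)
      have h2 : Real.pi * (H / ((M + g.1.val : ℕ) : ℝ)) =
          R / ((N : ℝ) * ((M + g.1.val : ℕ) : ℝ)) := by
        rw [hH]
        field_simp
      rw [h2]
      exact h1)
  -- big ball versus grid ball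
  have hcross : ∀ (i : Fin k₀) (g : Σ τ : Fin M, GBin (m + 1) M mτ τ),
      Disjoint (F i '' capBall (m + 1) (P i)) (G g '' capBall (m + 1) (ρ g.1)) := by
    intro i g
    rw [Set.disjoint_left]
    rintro y ⟨w, hw, rfl⟩ ⟨z, hz, heq⟩
    have hcube := hG4 g z hz
    rw [heq] at hcube
    by_cases hi : i.val = 0
    · have h1 := hF4 i hi w hw
      have h2 := hgood0 ⟨g.1, g.2.1⟩ i hi
      have h3 : ∑ j, (cubeOf (m + 1) K (ψ ⟨g.1, g.2.1⟩) j : ℝ) * H < ∑ j, ‖F i w j‖ ^ 2 :=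
        Finset.sum_lt_sum_of_nonempty (Finset.univ_nonempty_iff.2 ⟨⟨0, Nat.succ_pos m⟩⟩)
          fun j _ => (hcube j).1
      rw [sum_norm_sq, ← Finset.sum_mul] at h3
      have h4 : Real.pi * ((∑ j, (cubeOf (m + 1) K (ψ ⟨g.1, g.2.1⟩) j : ℝ)) * H) <
          Real.pi * ‖F i w‖ ^ 2 := mul_lt_mul_of_pos_left h3 hpi
      have h5 : Real.pi * ((∑ j, (cubeOf (m + 1) K (ψ ⟨g.1, g.2.1⟩) j : ℝ)) * H) =
          (∑ j, (cubeOf (m + 1) K (ψ ⟨g.1, g.2.1⟩) j : ℝ)) * (R / (N : ℝ)) := by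
        rw [← hπH]
        ring
      rw [h5] at h4
      linarith
    · have hlt : i.val - 1 < m + 1 := by
        have := i.isLt
        omega
      have h1 := hF5 i hi w hw ⟨i.val - 1, hlt⟩ rfl
      have h2 := hgood1 ⟨g.1, g.2.1⟩ i hi ⟨i.val - 1, hlt⟩ rfl
      have h3 := (hcube ⟨i.val - 1, hlt⟩).2
      have h4 : Real.pi * ‖F i w ⟨i.val - 1, hlt⟩‖ ^ 2 <
          Real.pi * (((cubeOf (m + 1) K (ψ ⟨g.1, g.2.1⟩) ⟨i.val - 1, hlt⟩ : ℝ) + 1) * H) :=
        mul_lt_mul_of_pos_left h3 hpi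
      have h5 : Real.pi * (((cubeOf (m + 1) K (ψ ⟨g.1, g.2.1⟩) ⟨i.val - 1, hlt⟩ : ℝ) + 1) * H) =
          ((cubeOf (m + 1) K (ψ ⟨g.1, g.2.1⟩) ⟨i.val - 1, hlt⟩ : ℝ) + 1) * (R / (N : ℝ)) := by
        rw [← hπH]
        ring
      rw [h5] at h4
      linarith
  refine ⟨Sum.elim F G, ?_, ?_, ?_⟩
  · rintro (i | g)
    · exact hF1 i
    · exact hG1 g
  · rintro (i | g)
    · exact hF2 i
    · exact hG2 g
  · rintro (i | g) (j | g') hne
    · exact hF3 i j (fun h => hne (congrArg Sum.inl h))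
    · exact hcross i g'
    · exact (hcross j g).symm
    · exact hG3 g g' (fun h => hne (congrArg Sum.inr h))

/-- Nesting next to a family of big balls that are only shrunk. -/
theorem nest_sum {n : ℕ} {ι₀ ι κ : Type} (φ : ι → κ) (P P' : ι₀ → ℝ) (r : ι → ℝ) (ρ : κ → ℝ)
    (R : ℝ) (hout : BallPackingOn n (ι₀ ⊕ κ) (Sum.elim P' ρ) R) (hP : ∀ i, P i < P' i)
    (hin : ∀ g : κ, BallPackingOn n {i : ι // φ i = g} (fun i => r i.val) (ρ g)) :
    BallPackingOn n (ι₀ ⊕ ι) (Sum.elim P r) R := by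
  refine BallPackingOn.nest (Sum.map id φ) (Sum.elim P r) (Sum.elim P' ρ) R hout ?_
  rintro (i₀ | g)
  · have : Subsingleton {x : ι₀ ⊕ ι // Sum.map id φ x = Sum.inl i₀} := by
      refine ⟨?_⟩
      rintro ⟨(a | a), ha⟩ ⟨(b | b), hb⟩
      · have h1 : a = i₀ := Sum.inl.inj ha
        have h2 : b = i₀ := Sum.inl.inj hb
        subst h1
        subst h2
        rfl
      · exact absurd hb Sum.inr_ne_inl
      · exact absurd ha Sum.inr_ne_inl
      · exact absurd ha Sum.inr_ne_inl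
    refine ballPackingOn_of_subsingleton n _ _ _ ?_
    rintro ⟨(a | a), ha⟩
    · have h1 : a = i₀ := Sum.inl.inj ha
      subst h1
      exact hP a
    · exact absurd ha Sum.inr_ne_inl
  · refine BallPackingOn.comap (fun x : {x : ι₀ ⊕ ι // Sum.map id φ x = Sum.inr g} =>
        (match x with
          | ⟨Sum.inl _, h⟩ => (Sum.inl_ne_inr h).elim
          | ⟨Sum.inr i, h⟩ => ⟨i, Sum.inr.inj h⟩ : {i : ι // φ i = g})) ?_
        (fun i => r i.val) _ (ρ g) ?_ (hin g)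
    · rintro ⟨(a | a), ha⟩ ⟨(b | b), hb⟩ hab
      · exact absurd ha Sum.inl_ne_inr
      · exact absurd ha Sum.inl_ne_inr
      · exact absurd hb Sum.inl_ne_inr
      · have h1 : a = b := congrArg Subtype.val hab
        subst h1
        rfl
    · rintro ⟨(a | a), ha⟩
      · exact absurd ha Sum.inl_ne_inr
      · rfl

end Vale.Agent.Lib.P209.H49
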